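import Vale.Agent.P017.H540.T3
import Vale.Agent.P017.H524.Defs

set_option autoImplicit false

namespace Vale.Agent.P017.H540

open Vale.Agent.P017.H524

/-- **Transposition** for even squarefree `d`, with `SqMod`. -/
theorem t3_sqMod {d : ℕ} (hsf : Squarefree d) (hev : d % 2 = 0)
    (hR : ∀ a b : ℕ, a * b = d → a % 2 = 1 → SqMod a b → SqMod b a → a = 1)
    (b c : ℤ) (hbc : b * c = -d) (hb8 : b % 8 = 1) (h1 : SqMod b c) (h2 : SqMod c b) : b = 1 :=
  t3 hsf hev (fun a b' hab ha h3 h4 => hR a b' hab ha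
    (fun q hq hqb => h3 q hq (by exact_mod_cast hqb))
    (fun q hq hqa => h4 q hq (by exact_mod_cast hqa))) b c hbc hb8 h1 h2

end Vale.Agent.P017.H540
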