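import Vale.Agent.P017.H689.R12G

set_option autoImplicit false

/-!
# The Redei matrix of `-4 d`, `d` even, and its transpose
-/

namespace Vale.Agent.P017.H540

open Finset Vale.P017.H689

theorem z2 : ∀ s : ZMod 2, s = 0 ∨ s = 1 := by decide

theorem add2 : ∀ t : ZMod 2, t + t = 0 := by decide

theorem sum_ind (P : Finset ℕ) (i : ℕ) (f y : ℕ → ZMod 2) (S : Finset ℕ)
    (hS : ∀ j, j ∈ S ↔ j ∈ P ∧ j ≠ i ∧ y j = 1) :
    ∑ j ∈ P.erase i, f j * y j = ∑ j ∈ S, f j := by
  classical
  have h1 : ∑ j ∈ P.erase i, f j * y j = ∑ j ∈ (P.erase i).filter (fun j => y j = 1), f j := by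
    rw [Finset.sum_filter]
    refine Finset.sum_congr rfl fun j _ => ?_
    rcases z2 (y j) with h | h
    · rw [h]; simp
    · rw [h]; simp
  rw [h1]
  refine Finset.sum_congr ?_ fun _ _ => rfl
  ext j
  rw [hS, Finset.mem_filter, Finset.mem_erase]
  tauto

/-- the matrix over the odd primes of an even `d` -/
noncomputable def AM (P : Finset ℕ) : Matrix P P (ZMod 2) := fun i j =>
  if (i : ℕ) = j then ee i 2 + ∑ k ∈ P.erase (i : ℕ), ee i k else ee i j

theorem AM_mulVec (P : Finset ℕ) (y : ℕ → ZMod 2) (i : P) :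
    (AM P).mulVec (fun j => y j) i
      = ∑ j ∈ P.erase (i : ℕ), ee i j * y j + (ee i 2 + ∑ k ∈ P.erase (i : ℕ), ee i k) * y i := by
  classical
  simp only [Matrix.mulVec, dotProduct, AM]
  rw [Finset.sum_coe_sort P (fun q : ℕ => (if (i : ℕ) = q then ee i 2 + ∑ k ∈ P.erase (i : ℕ), ee i k
    else ee i q) * y q), ← Finset.add_sum_erase _ _ i.2, if_pos rfl, add_comm]
  congr 1
  refine Finset.sum_congr rfl fun j hj => ?_
  rw [if_neg (fun h => (Finset.mem_erase.1 hj).1 h.symm)]

theorem AMT_mulVec {P : Finset ℕ} (hP : ∀ p ∈ P, p.Prime) (h2 : ∀ p ∈ P, p % 2 = 1)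
    (y : ℕ → ZMod 2) (i : P) :
    (AM P).transpose.mulVec (fun j => y j) i
      = ∑ j ∈ P.erase (i : ℕ), (ee i j + rc i j) * y j
        + (ee i 2 + ∑ k ∈ P.erase (i : ℕ), ee i k) * y i := by
  classical
  have h1 : ∀ j : P, AM P j i * y j = (fun q : ℕ => (if (i : ℕ) = q then ee i 2 +
      ∑ k ∈ P.erase (i : ℕ), ee i k else ee q i) * y q) j := by
    intro j
    simp only [AM]
    by_cases h : (i : ℕ) = j
    · rw [if_pos h, if_pos h.symm, ← h]
    · rw [if_neg h, if_neg (Ne.symm h)]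
  simp only [Matrix.mulVec, dotProduct, Matrix.transpose_apply]
  rw [Finset.sum_congr rfl (fun j _ => h1 j), Finset.sum_coe_sort P (fun q : ℕ =>
    (if (i : ℕ) = q then ee i 2 + ∑ k ∈ P.erase (i : ℕ), ee i k else ee q i) * y q),
    ← Finset.add_sum_erase _ _ i.2, if_pos rfl, add_comm]
  congr 1
  refine Finset.sum_congr rfl fun j hj => ?_
  have hj' := Finset.mem_erase.1 hj
  rw [if_neg (fun h => hj'.1 h.symm)]
  have := ee_rec' (hP i i.2) (hP j hj'.2) (h2 i i.2) (h2 j hj'.2) (fun h => hj'.1 h.symm)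
  have h3 : ee j i = ee i j + rc i j := by
    unfold rc
    rw [← this, ← add_assoc, add2, zero_add]
  rw [h3]

theorem ker_transpose0 {ι : Type*} [Fintype ι] [DecidableEq ι] (M : Matrix ι ι (ZMod 2))
    (hker : ∀ x : ι → ZMod 2, M.mulVec x = 0 → x = 0) (x : ι → ZMod 2)
    (hx : M.transpose.mulVec x = 0) : x = 0 := by
  by_contra hx0
  have h1 : M.transpose.det = 0 := Matrix.exists_mulVec_eq_zero_iff.1 ⟨x, hx0, hx⟩
  rw [Matrix.det_transpose] at h1
  obtain ⟨v, hv0, hv⟩ := Matrix.exists_mulVec_eq_zero_iff.2 h1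
  exact hv0 (hker v hv)

theorem sq2 : ∀ t : ZMod 2, IsSquare t := by
  intro t
  rcases z2 t with h | h
  · exact ⟨0, by rw [h]; simp⟩
  · exact ⟨1, by rw [h]; simp⟩

theorem mem_of_dvd_prod {U : Finset ℕ} (hU : ∀ q ∈ U, q.Prime) {p : ℕ} (hp : p.Prime)
    (h : p ∣ ∏ q ∈ U, q) : p ∈ U := by
  obtain ⟨q, hq, hpq⟩ := (Prime.dvd_finsetProd_iff hp.prime _).mp h
  rwa [(Nat.prime_dvd_prime_iff_eq hp (hU q hq)).mp hpq]

/-- the kernel of the matrix -/
theorem kernel {d : ℕ} (hsf : Squarefree d) (hev : d % 2 = 0)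
    (hR : ∀ a b : ℕ, a * b = d → a % 2 = 1 →
      (∀ q : ℕ, q.Prime → q ∣ b → IsSquare ((a : ℤ) : ZMod q)) →
      (∀ q : ℕ, q.Prime → q ∣ a → IsSquare ((b : ℤ) : ZMod q)) → a = 1)
    {P : Finset ℕ} (hP : P = d.primeFactors.erase 2)
    (x : P → ZMod 2) (hx : (AM P).mulVec x = 0) : x = 0 := by
  classical
  have hd0 : d ≠ 0 := hsf.ne_zero
  have hPp : ∀ p ∈ P, p.Prime := fun p hp => by
    rw [hP] at hp
    exact Nat.prime_of_mem_primeFactors (Finset.mem_of_mem_erase hp)
  have h2P : 2 ∉ P := by rw [hP]; exact Finset.notMem_erase _ _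
  have hodd : ∀ p ∈ P, p % 2 = 1 := fun p hp => by
    rcases (hPp p hp).eq_two_or_odd with h | h
    · rw [h] at hp
      exact absurd hp h2P
    · exact h
  have hins : insert 2 P = d.primeFactors := by
    rw [hP]
    exact Finset.insert_erase (Nat.mem_primeFactors.2 ⟨Nat.prime_two, Nat.dvd_of_mod_eq_zero hev, hd0⟩)
  have hprod : 2 * ∏ p ∈ P, p = d := by
    have h := Finset.prod_insert (f := fun p : ℕ => p) h2P
    rw [hins, Nat.prod_primeFactors_of_squarefree hsf] at h
    exact h.symm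
  have hndvd : ∀ p ∈ P, ∀ q ∈ P, p ≠ q → ¬ p ∣ q := by
    intro p hp q hq hpq h
    exact hpq ((Nat.prime_dvd_prime_iff_eq (hPp p hp) (hPp q hq)).mp h)
  have hnd2 : ∀ p ∈ P, ¬ p ∣ 2 := by
    intro p hp h
    rw [(Nat.prime_dvd_prime_iff_eq (hPp p hp) Nat.prime_two).mp h] at hp
    exact h2P hp
  let y : ℕ → ZMod 2 := fun q => if h : q ∈ P then x ⟨q, h⟩ else 0
  have hxy : x = fun j : P => y j := by
    funext j
    simp only [y, dif_pos j.2]
  set S := P.filter (fun q => y q = 1) with hS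
  set S' := P.filter (fun q => ¬ y q = 1) with hS'
  have hSP : S ⊆ P := Finset.filter_subset _ _
  have hSP' : S' ⊆ P := Finset.filter_subset _ _
  have hmul : (∏ q ∈ S, q) * ∏ q ∈ S', q = ∏ q ∈ P, q := Finset.prod_filter_mul_prod_filter_not _ _ _
  have hSodd : (∏ q ∈ S, q) % 2 = 1 := by
    by_contra h
    have h' : 2 ∣ ∏ q ∈ S, q := by omega
    exact h2P (hSP (mem_of_dvd_prod (fun q hq => hPp q (hSP hq)) Nat.prime_two h'))
  have hrow : ∀ i (hi : i ∈ P), ∑ j ∈ P.erase i, ee i j * y j +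
      (ee i 2 + ∑ k ∈ P.erase i, ee i k) * y i = 0 := by
    intro i hi
    have := AM_mulVec P y ⟨i, hi⟩
    rw [← hxy, hx] at this
    exact this.symm
  have g1 : ∀ p : ℕ, p.Prime → p ∣ 2 * ∏ q ∈ S', q →
      IsSquare (((∏ q ∈ S, q : ℕ) : ℤ) : ZMod p) := by
    intro p hp hpd
    rcases (Nat.Prime.dvd_mul hp).mp hpd with h | h
    · have hp2 : p = 2 := (Nat.prime_dvd_prime_iff_eq hp Nat.prime_two).mp h
      subst hp2
      exact sq2 _
    · have hpS := mem_of_dvd_prod (fun q hq => hPp q (hSP' hq)) hp h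
      have hpP := hSP' hpS
      have hy : y p = 0 := by
        rcases z2 (y p) with h0 | h0
        · exact h0
        · exact absurd h0 (Finset.mem_filter.1 hpS).2
      have h3 := hrow p hpP
      rw [hy, mul_zero, add_zero, sum_ind P p (fun j => ee p j) y S] at h3
      · rw [Int.cast_natCast, ← ee_eq_zero, ee_prod hp]
        · exact h3
        · intro q hq
          refine hndvd p hpP q (hSP hq) ?_
          rintro rfl
          rw [(Finset.mem_filter.1 hq).2] at hy
          exact one_ne_zero hy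
      · intro j
        rw [hS, Finset.mem_filter]
        constructor
        · rintro ⟨h4, h5⟩
          refine ⟨h4, ?_, h5⟩
          rintro rfl
          rw [h5] at hy
          exact one_ne_zero hy
        · rintro ⟨h4, _, h5⟩
          exact ⟨h4, h5⟩
  have g2 : ∀ p : ℕ, p.Prime → p ∣ ∏ q ∈ S, q →
      IsSquare (((2 * ∏ q ∈ S', q : ℕ) : ℤ) : ZMod p) := by
    intro p hp hpd
    have hpS := mem_of_dvd_prod (fun q hq => hPp q (hSP hq)) hp hpd
    have hpP := hSP hpS
    have hy : y p = 1 := (Finset.mem_filter.1 hpS).2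
    have h3 := hrow p hpP
    rw [hy, mul_one] at h3
    have h4 : ∑ j ∈ P.erase p, ee p j * y j + ∑ k ∈ P.erase p, ee p k = ∑ j ∈ S', ee p j := by
      rw [← Finset.sum_add_distrib, ← sum_ind P p (fun j => ee p j) (fun j => y j + 1) S']
      · refine Finset.sum_congr rfl fun j _ => ?_
        ring
      · intro j
        rw [hS', Finset.mem_filter]
        have hz : y j + 1 = 1 ↔ ¬ y j = 1 := by
          rcases z2 (y j) with h0 | h0 <;> rw [h0] <;> decide
        rw [hz]
        constructor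
        · rintro ⟨h5, h6⟩
          refine ⟨h5, ?_, h6⟩
          rintro rfl
          exact h6 hy
        · rintro ⟨h5, _, h6⟩
          exact ⟨h5, h6⟩
    have h5 : ¬ p ∣ ∏ q ∈ S', q := by
      intro h
      have := mem_of_dvd_prod (fun q hq => hPp q (hSP' hq)) hp h
      exact (Finset.mem_filter.1 this).2 hy
    rw [Int.cast_natCast, ← ee_eq_zero, ee_mul hp (hnd2 p hpP) h5, ee_prod hp]
    · rw [← h4]
      rw [← h3]
      ring
    · intro q hq
      refine hndvd p hpP q (hSP' hq) ?_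
      rintro rfl
      exact (Finset.mem_filter.1 hq).2 hy
  have h1 := hR (∏ q ∈ S, q) (2 * ∏ q ∈ S', q) (by rw [← hprod, ← hmul]; ring) hSodd g1 g2
  rw [hxy]
  funext j
  rcases z2 (y j) with h0 | h0
  · exact h0
  · exfalso
    have hjS : (j : ℕ) ∈ S := Finset.mem_filter.2 ⟨j.2, h0⟩
    have := Finset.dvd_prod_of_mem (fun q : ℕ => q) hjS
    rw [h1] at this
    exact (hPp j j.2).one_lt.ne' (Nat.dvd_one.mp this)

/-- **Transposition** for even squarefree `d`. -/
theorem t3 {d : ℕ} (hsf : Squarefree d) (hev : d % 2 = 0)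
    (hR : ∀ a b : ℕ, a * b = d → a % 2 = 1 →
      (∀ q : ℕ, q.Prime → q ∣ b → IsSquare ((a : ℤ) : ZMod q)) →
      (∀ q : ℕ, q.Prime → q ∣ a → IsSquare ((b : ℤ) : ZMod q)) → a = 1)
    (b c : ℤ) (hbc : b * c = -d) (hb8 : b % 8 = 1)
    (h1 : ∀ q : ℕ, q.Prime → (q : ℤ) ∣ c → IsSquare (b : ZMod q))
    (h2 : ∀ q : ℕ, q.Prime → (q : ℤ) ∣ b → IsSquare (c : ZMod q)) : b = 1 := by
  classical
  have hd0 : d ≠ 0 := hsf.ne_zero
  obtain ⟨m, hm⟩ : ∃ m, b.natAbs = m := ⟨_, rfl⟩
  obtain ⟨M, hM⟩ : ∃ M, c.natAbs = M := ⟨_, rfl⟩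
  have hmM : m * M = d := by
    rw [← hm, ← hM, ← Int.natAbs_mul, hbc]; simp
  have hmd : m ∣ d := ⟨M, hmM.symm⟩
  have hMd : M ∣ d := ⟨m, by rw [mul_comm]; exact hmM.symm⟩
  have hmsf : Squarefree m := hsf.squarefree_of_dvd hmd
  have hMsf : Squarefree M := hsf.squarefree_of_dvd hMd
  have hm0 : m ≠ 0 := hmsf.ne_zero
  have hM0 : M ≠ 0 := hMsf.ne_zero
  have hcopr : Nat.Coprime m M := by
    rw [← hmM] at hsf
    exact Nat.coprime_of_squarefree_mul hsf
  have hm2 : ¬ 2 ∣ m := by omega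
  have hM2 : 2 ∣ M := by
    have : 2 ∣ m * M := by rw [hmM]; exact Nat.dvd_of_mod_eq_zero hev
    exact ((Nat.Prime.dvd_mul Nat.prime_two).mp this).resolve_left hm2
  have hb := sign_eq' hm hmsf (by omega)
  set k := (m.primeFactors.filter (fun q => q % 4 = 3)).card with hk
  have hc : c = (-1) ^ (k + 1) * M := by
    have h3 : ((-1 : ℤ) ^ k * m) * c = ((-1 : ℤ) ^ k * m) * ((-1) ^ (k + 1) * M) := by
      rw [← hb, hbc, hb, ← hmM]
      push_cast
      have : ((-1 : ℤ) ^ k) * (-1) ^ k = 1 := by rw [← mul_pow]; simp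
      rw [pow_succ]
      linear_combination (-(m : ℤ) * M) * (-1) * this * (-1) * (-1)
    have h4 : ((-1 : ℤ) ^ k * m) ≠ 0 := by
      rw [← hb]
      omega
    exact mul_left_cancel₀ h4 h3
  obtain ⟨P, hP⟩ : ∃ P : Finset ℕ, P = d.primeFactors.erase 2 := ⟨_, rfl⟩
  have hPmem : ∀ q, q ∈ P ↔ q ≠ 2 ∧ q.Prime ∧ q ∣ d := by
    intro q
    rw [hP, Finset.mem_erase, Nat.mem_primeFactors]
    tauto
  have hPp : ∀ p ∈ P, p.Prime := fun p hp => ((hPmem p).1 hp).2.1
  have hodd : ∀ p ∈ P, p % 2 = 1 := fun p hp => by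
    rcases (hPp p hp).eq_two_or_odd with h | h
    · exact absurd h ((hPmem p).1 hp).1
    · exact h
  have hnot : ∀ q : ℕ, q.Prime → q ∣ m → ¬ q ∣ M := fun q hq h h' =>
    hq.one_lt.ne' (Nat.dvd_one.mp (hcopr ▸ Nat.dvd_gcd h h'))
  have hor : ∀ q ∈ P, ¬ q ∣ m → q ∣ M := by
    intro q hq h
    have := ((hPmem q).1 hq).2.2
    rw [← hmM] at this
    exact ((Nat.Prime.dvd_mul (hPp q hq)).mp this).resolve_left h
  have hmP : ∀ q, q ∈ m.primeFactors ↔ q ∈ P ∧ q ∣ m := by
    intro q
    rw [Nat.mem_primeFactors, hPmem]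
    constructor
    · rintro ⟨h3, h4, _⟩
      refine ⟨⟨?_, h3, h4.trans hmd⟩, h4⟩
      rintro rfl
      exact hm2 h4
    · rintro ⟨⟨_, h3, _⟩, h4⟩
      exact ⟨h3, h4, hm0⟩
  let y : ℕ → ZMod 2 := fun q => if q ∣ m then 1 else 0
  have hker : (AM P).transpose.mulVec (fun j : P => y j) = 0 := by
    funext i
    rw [AMT_mulVec hPp hodd y i]
    show _ = (0 : ZMod 2)
    have hip := hPp i i.2
    by_cases hi : (i : ℕ) ∣ m
    · have hiM := hnot i hip hi
      have hyi : y i = 1 := if_pos hi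
      rw [hyi, mul_one]
      have hsq := sq_neg_pow' hip hiM (k + 1) (by
        rw [← hc]
        apply h2 i hip
        rw [← Int.natAbs_dvd_natAbs, hm]; simpa using hi)
      -- `ee i M`
      have hMi : ee i M = ee i 2 + ∑ j ∈ P.filter (fun q => ¬ q ∣ m), ee i j := by
        have hins : M.primeFactors = insert 2 (P.filter (fun q => ¬ q ∣ m)) := by
          ext q
          rw [Nat.mem_primeFactors, Finset.mem_insert, Finset.mem_filter, hPmem]
          constructor
          · rintro ⟨h3, h4, _⟩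
            by_cases h5 : q = 2
            · exact Or.inl h5
            · exact Or.inr ⟨⟨h5, h3, h4.trans hMd⟩, fun h6 => hnot q h3 h6 h4⟩
          · rintro (rfl | ⟨h3, h4⟩)
            · exact ⟨Nat.prime_two, hM2, hM0⟩
            · exact ⟨h3.2.1, hor q ((hPmem q).2 h3) h4, hM0⟩
        have h2n : 2 ∉ P.filter (fun q => ¬ q ∣ m) := by
          intro h
          exact ((hPmem 2).1 (Finset.mem_filter.1 h).1).1 rfl
        conv_lhs => rw [← Nat.prod_primeFactors_of_squarefree hMsf]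
        rw [ee_prod hip, hins, Finset.sum_insert h2n]
        intro q hq hiq
        have hqp := Nat.prime_of_mem_primeFactors hq
        rw [(Nat.prime_dvd_prime_iff_eq hip hqp).mp hiq] at hiM
        exact hiM (Nat.dvd_of_mem_primeFactors hq)
      have e1 : ∑ j ∈ P.erase (i : ℕ), (ee i j + rc i j) * y j + (ee i 2 +
          ∑ k ∈ P.erase (i : ℕ), ee i k) = ee i 2 + ∑ j ∈ P.erase (i : ℕ), ee i j * (y j + 1)
          + ∑ j ∈ P.erase (i : ℕ), rc i j * y j := by
        have : ∑ j ∈ P.erase (i : ℕ), (ee i j + rc i j) * y j = ∑ j ∈ P.erase (i : ℕ), ee i j * y j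
            + ∑ j ∈ P.erase (i : ℕ), rc i j * y j := by
          rw [← Finset.sum_add_distrib]
          exact Finset.sum_congr rfl fun j _ => by ring
        have h' : ∑ j ∈ P.erase (i : ℕ), ee i j * (y j + 1) = ∑ j ∈ P.erase (i : ℕ), ee i j * y j
            + ∑ j ∈ P.erase (i : ℕ), ee i j := by
          rw [← Finset.sum_add_distrib]
          exact Finset.sum_congr rfl fun j _ => by ring
        rw [this, h']
        ring
      rw [e1, sum_ind P i (fun j => ee i j) (fun j => y j + 1) (P.filter (fun q => ¬ q ∣ m)),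
        sum_ind P i (fun j => rc i j) y (m.primeFactors.erase i), ← hMi]
      · have h5 : ∑ j ∈ m.primeFactors.erase (i : ℕ), rc i j = (∑ j ∈ m.primeFactors, rc i j) + rc i i := by
          rw [← Finset.add_sum_erase m.primeFactors (fun j => rc i j) ((hmP i).2 ⟨i.2, hi⟩)]
          have := add2 (rc i i)
          linear_combination (-1 : ZMod 2) * this
        rw [h5, sum_rc, ← hk]
        by_cases h6 : (i : ℕ) % 4 = 3
        · rw [if_pos h6] at hsq ⊢
          unfold rc
          rw [if_pos ⟨h6, h6⟩, ← hsq]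
          push_cast
          ring
        · rw [if_neg h6] at hsq ⊢
          unfold rc
          rw [if_neg (fun h => h6 h.1), add_zero, add_zero]
          simpa using hsq
      · intro j
        rw [Finset.mem_erase, hmP]
        simp only [y]
        constructor
        · rintro ⟨h6, h7, h8⟩
          exact ⟨h7, h6, if_pos h8⟩
        · rintro ⟨h6, h7, h8⟩
          refine ⟨h7, h6, ?_⟩
          by_contra h9
          rw [if_neg h9] at h8
          exact zero_ne_one h8
      · intro j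
        rw [Finset.mem_filter]
        simp only [y]
        constructor
        · rintro ⟨h6, h7⟩
          refine ⟨h6, ?_, ?_⟩
          · rintro rfl
            exact h7 hi
          · rw [if_neg h7, zero_add]
        · rintro ⟨h6, _, h8⟩
          refine ⟨h6, fun h9 => ?_⟩
          rw [if_pos h9] at h8
          exact absurd h8 (by decide)
    · have hyi : y i = 0 := if_neg hi
      rw [hyi, mul_zero, add_zero]
      have hiM := hor i i.2 hi
      have hsq := sq_neg_pow' hip hi k (by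
        rw [← hb]
        apply h1 i hip
        rw [← Int.natAbs_dvd_natAbs, hM]; simpa using hiM)
      rw [sum_ind P i (fun j => ee i j + rc i j) y m.primeFactors, Finset.sum_add_distrib,
        sum_rc, ← hk, ← ee_prod hip, Nat.prod_primeFactors_of_squarefree hmsf]
      · exact hsq
      · intro q hq hiq
        have hqp := Nat.prime_of_mem_primeFactors hq
        rw [(Nat.prime_dvd_prime_iff_eq hip hqp).mp hiq] at hi
        exact hi (Nat.dvd_of_mem_primeFactors hq)
      · intro j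
        rw [hmP]
        simp only [y]
        constructor
        · rintro ⟨h6, h7⟩
          refine ⟨h6, ?_, if_pos h7⟩
          rintro rfl
          exact hi h7
        · rintro ⟨h6, _, h8⟩
          refine ⟨h6, ?_⟩
          by_contra h9
          rw [if_neg h9] at h8
          exact zero_ne_one h8
  have hzero := ker_transpose0 (AM P) (fun x hx => kernel hsf hev hR hP x hx) _ hker
  have hm1 : m = 1 := by
    by_contra hm1
    obtain ⟨p, hp, hpm⟩ := Nat.exists_prime_and_dvd hm1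
    have hpP : p ∈ P := ((hmP p).1 (Nat.mem_primeFactors.mpr ⟨hp, hpm, hm0⟩)).1
    have := congrFun hzero ⟨p, hpP⟩
    simp [y, hpm] at this
  rw [hm1] at hm
  omega

end Vale.Agent.P017.H540
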